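/- P365: at weak disorder, in every dimension at least two, the resolvent diagonal is bounded at
the kinetic scale uniformly in the energy, so no eigenfunction is concentrated. -/
import Mathlib
import Vale.Agent.Anderson.Spreading

namespace Vale.Agent.Results.P365.WeakDisorderSpreading

open MeasureTheory Vale.Agent.Anderson

theorem result : ∀ d : ℕ, 2 ≤ d → ∀ M : ℕ,
    IsProbabilityMeasure (latticeLaw d) ∧
    ∃ C K lam0 : ℝ, 0 < C ∧ 0 < K ∧ 0 < lam0 ∧ lam0 < 1 ∧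
    ∀ lam : ℝ, 0 < lam → lam < lam0 →
    ∃ S : Set (Lat d → ℝ), MeasurableSet S ∧
      latticeLaw d S ≤ ENNReal.ofReal (lam ^ M) ∧
      ∀ ω ∉ S, ∀ x : Lat d, (∀ i, |(x i : ℝ)| ≤ (lam⁻¹) ^ M) →
        (∀ E : ℝ,
          (∃ u : L2Lat d, SolvesEq (fun y => lam * ω y)
            ((E : ℂ) + ((K * lam ^ 2 * Real.log (1 / lam) ^ 3 : ℝ) : ℂ) * Complex.I) u
            (Pi.single x 1)) ∧
          (∀ u : L2Lat d, SolvesEq (fun y => lam * ω y)
            ((E : ℂ) + ((K * lam ^ 2 * Real.log (1 / lam) ^ 3 : ℝ) : ℂ) * Complex.I) u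
            (Pi.single x 1) →
            ‖u x‖ ≤ C * Real.log (1 / lam) ^ 2) ∧
          (∀ ψ : L2Lat d, SolvesEq (fun y => lam * ω y) (E : ℂ) ψ 0 →
            ‖ψ x‖ ^ 2 ≤ C * lam ^ 2 * Real.log (1 / lam) ^ 5 * ‖ψ‖ ^ 2)) ∧
        (∀ (m : ℕ) (E : Fin m → ℝ) (ψ : Fin m → L2Lat d),
          Orthonormal ℂ ψ →
          (∀ j : Fin m, SolvesEq (fun y => lam * ω y) (E j : ℂ) (ψ j) 0) →
          ∑ j, ‖ψ j x‖ ^ 4 ≤ C * lam ^ 2 * Real.log (1 / lam) ^ 5) := by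
  intro d hd M
  obtain ⟨d, rfl⟩ := Nat.exists_eq_add_of_le' hd
  refine ⟨inferInstance, ?_⟩
  obtain ⟨C, K, lam0, hC, hK, hl0, hl1, h⟩ := weak_disorder_spreading d M
  refine ⟨C * (1 + K), K, lam0, by positivity, hK, hl0, hl1, fun lam h0 hlt => ?_⟩
  obtain ⟨S, hS, hμ, hgood⟩ := h lam h0 hlt
  refine ⟨S, hS, hμ, fun ω hω x hx => ?_⟩
  obtain ⟨hv, hb⟩ := hgood ω hω
  have hone : (Pi.single x 1 : (Fin (d + 2) → ℤ) → ℂ) =
      ((lp.single 2 x 1 : L2Lat (d + 2)) : (Fin (d + 2) → ℤ) → ℂ) := by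
    funext y
    rcases eq_or_ne y x with rfl | hy
    · rw [Pi.single_eq_same, lp.single_apply_self]
    · rw [Pi.single_eq_of_ne hy, lp.single_apply_ne _ _ _ hy]
  have hΛ : 0 < Real.log (1 / lam) := Real.log_pos ((one_lt_div h0).mpr (hlt.trans hl1))
  set η := K * lam ^ 2 * Real.log (1 / lam) ^ 3 with hηdef
  have hη : 0 < η := by positivity
  have key : ∀ (E : ℝ) (ψ : L2Lat (d + 2)), SolvesEq (fun y => lam * ω y) (E:ℂ) ψ 0 →
      ‖ψ x‖ ^ 2 ≤ C * (1 + K) * lam ^ 2 * Real.log (1 / lam) ^ 5 * ‖ψ‖ ^ 2 := by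
    intro E ψ hψ0
    obtain ⟨u, hu⟩ := exists_resolvent (fun y => lam * ω y) hv
      ((E:ℂ) + (η:ℂ) * Complex.I) (by simp [hη.ne']) (lp.single 2 x 1 : L2Lat (d + 2))
    refine le_trans (eigen_bound _ hv hη hu hψ0) (mul_le_mul_of_nonneg_right ?_ (sq_nonneg _))
    refine le_trans (mul_le_mul_of_nonneg_left (hb x hx E u hu) hη.le) ?_
    calc η * (C * Real.log (1 / lam) ^ 2) = C * K * (lam ^ 2 * Real.log (1 / lam) ^ 5) := by
          rw [hηdef]; ring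
      _ ≤ C * (1 + K) * (lam ^ 2 * Real.log (1 / lam) ^ 5) := by gcongr; linarith
      _ = _ := by ring
  refine ⟨fun E => ⟨?_, fun u hu => ?_, key E⟩, fun m E ψ hψo hψ => ?_⟩
  · obtain ⟨u, hu⟩ := exists_resolvent (fun y => lam * ω y) hv
      ((E:ℂ) + (η:ℂ) * Complex.I) (by simp [hη.ne']) (lp.single 2 x 1 : L2Lat (d + 2))
    exact ⟨u, hone ▸ hu⟩
  · refine le_trans (hb x hx E u (hone ▸ hu)) ?_
    exact mul_le_mul_of_nonneg_right (le_mul_of_one_le_right hC.le (by linarith)) (sq_nonneg _)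
  · set B := C * (1 + K) * lam ^ 2 * Real.log (1 / lam) ^ 5 with hB
    have hB0 : 0 ≤ B := by positivity
    have h1 : ∀ j, ‖ψ j x‖ ^ 2 ≤ B := fun j => by
      have := key (E j) (ψ j) (hψ j)
      rwa [hψo.1 j, one_pow, mul_one] at this
    have hbes := hψo.sum_inner_products_le (lp.single 2 x 1 : L2Lat (d + 2))
      (s := Finset.univ)
    rw [lp.norm_single (by norm_num), norm_one, one_pow] at hbes
    simp only [lp.inner_single_right, RCLike.inner_apply, one_mul, RCLike.norm_conj] at hbes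
    calc ∑ j, ‖ψ j x‖ ^ 4 ≤ ∑ j, B * ‖ψ j x‖ ^ 2 :=
          Finset.sum_le_sum fun j _ => by
            rw [show ‖ψ j x‖ ^ 4 = ‖ψ j x‖ ^ 2 * ‖ψ j x‖ ^ 2 by ring]
            exact mul_le_mul_of_nonneg_right (h1 j) (sq_nonneg _)
      _ = B * ∑ j, ‖ψ j x‖ ^ 2 := (Finset.mul_sum _ _ _).symm
      _ ≤ B * 1 := mul_le_mul_of_nonneg_left hbes hB0
      _ = B := mul_one B

end Vale.Agent.Results.P365.WeakDisorderSpreading
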